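import Mathlib
import Vale.Agent.Lib.P322.HighNoise2

namespace Vale.Agent.Results.P322.AllBooleanHighNoiseWide

open Vale.Agent.Lib.P322

/-- The Courtade-Kumar inequality `I(f(X);Y) ≤ 1 - h2(e)` for every `n`, every Boolean function
`f` on `n` bits (balanced or not) and every crossover probability `e` in `[3/10, 1/2]`, where
`X` is uniform on the cube and `Y` is the output of `n` independent binary symmetric channels
with crossover probability `e` on input `X`. -/
theorem result (n : ℕ) (f : (Fin n → Bool) → Bool) (e : ℝ) (he : 3 / 10 ≤ e) (he' : e ≤ 1 / 2) :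
    mutualInfo (joint n e f) ≤ 1 - h2 e :=
  ck_high_noise2 n f e he he'

end Vale.Agent.Results.P322.AllBooleanHighNoiseWide
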