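import Mathlib
import Vale.Agent.Lib.P322.Coord

namespace Vale.Agent.Results.P322.CKWeightCriterion

open Vale.Agent.Lib.P322

/-- The Courtade-Kumar inequality `I(f(X);Y) ≤ 1 - h2(e)` holds for every Boolean function `f` on
`n` bits (balanced or not) and every crossover probability `0 < e ≤ 1/2` for which some
coordinate `i` satisfies `rho^2 (1 - a) (1 + q a) ≤ q^2 (1 - rho^2 a) W`, where `rho = 1 - 2e`,
`q = 1 - rho^2`, `W` is the Fourier weight of `f` above degree one and
`a = fhat(i)^2 / (1 - (E f)^2)`. Dictators (`a = 1`) satisfy the criterion for every `e`. -/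
theorem result (n : ℕ) (e : ℝ) (he0 : 0 < e) (he : e ≤ 1 / 2) (f : (Fin n → Bool) → Bool)
    (i : Fin n)
    (hW : (1 - 2 * e) ^ 2 * (1 - coordShare n f i) *
        (1 + (1 - (1 - 2 * e) ^ 2) * coordShare n f i) ≤
      (1 - (1 - 2 * e) ^ 2) ^ 2 * (1 - (1 - 2 * e) ^ 2 * coordShare n f i) * highWeight n f) :
    mutualInfo (joint n e f) ≤ 1 - h2 e :=
  ck_of_coord n e he0 he f i hW

end Vale.Agent.Results.P322.CKWeightCriterion
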