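import Mathlib
import Vale.Agent.Lib.P322.Universal

namespace Vale.Agent.Results.P322.HighWeightBound

open Vale.Agent.Lib.P322

/-- Dimension-free upper bound on `I(f(X);Y)` for every Boolean function `f`, every `n` and every
crossover probability `0 < e ≤ 1/2`, with `rho = 1 - 2e`:
`I(f(X);Y) ≤ rho^2 / (2 ln 2 (1 - rho^2)) * (1 - (1 - rho^2)^2 W)` bits, where `W ≥ 0` is the
Fourier weight of `f` above degree one. -/
theorem result (n : ℕ) (e : ℝ) (he0 : 0 < e) (he : e ≤ 1 / 2) (f : (Fin n → Bool) → Bool) :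
    0 ≤ highWeight n f ∧
      mutualInfo (joint n e f) ≤
        (1 - 2 * e) ^ 2 / (2 * Real.log 2 * (1 - (1 - 2 * e) ^ 2)) *
          (1 - (1 - (1 - 2 * e) ^ 2) ^ 2 * highWeight n f) ∧
      mutualInfo (joint n e f) ≤ (1 - 2 * e) ^ 2 / (2 * Real.log 2 * (1 - (1 - 2 * e) ^ 2)) := by
  have hW := highWeight_nonneg n f
  have h := mutualInfo_le_highWeight n e he0 he f
  refine ⟨hW, h, le_trans h ?_⟩
  have hl : 0 < Real.log 2 := Real.log_pos (by norm_num)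
  have hq : 0 < 1 - (1 - 2 * e) ^ 2 := by nlinarith
  have hK : 0 ≤ (1 - 2 * e) ^ 2 / (2 * Real.log 2 * (1 - (1 - 2 * e) ^ 2)) := by positivity
  have h1 : 1 - (1 - (1 - 2 * e) ^ 2) ^ 2 * highWeight n f ≤ 1 := by
    have := mul_nonneg (sq_nonneg (1 - (1 - 2 * e) ^ 2)) hW
    linarith
  calc (1 - 2 * e) ^ 2 / (2 * Real.log 2 * (1 - (1 - 2 * e) ^ 2)) *
        (1 - (1 - (1 - 2 * e) ^ 2) ^ 2 * highWeight n f)
      ≤ (1 - 2 * e) ^ 2 / (2 * Real.log 2 * (1 - (1 - 2 * e) ^ 2)) * 1 :=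
        mul_le_mul_of_nonneg_left h1 hK
    _ = (1 - 2 * e) ^ 2 / (2 * Real.log 2 * (1 - (1 - 2 * e) ^ 2)) := mul_one _

end Vale.Agent.Results.P322.HighWeightBound
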